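import Vale.Agent.P319B.Main

namespace Vale.Agent.Results.P319.AuxPrime

/-- Small auxiliary primes modulo which `p` is not a `q`-th power. -/
theorem result : ∃ C : ℕ, ∀ q p : ℕ, q.Prime → p.Prime → 2 < q → q < p →
    ∃ l : ℕ, l.Prime ∧ l ≤ (q * p.size) ^ C ∧ l ≠ p ∧ q ∣ l - 1 ∧
      (p : ZMod l) ^ ((l - 1) / q) ≠ 1 := Vale.Agent.P319.aux_prime

end Vale.Agent.Results.P319.AuxPrime
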