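import Vale.Agent.P319A.Main

open Vale.Agent.P319A

namespace Vale.Agent.Results.P319.Cond

/-- Complete factorization in deterministic polynomial time for all primes `p` with a small
quadratic nonresidue and small auxiliary primes. -/
theorem result (C : ℕ) : ∃ F : ℕ × List ℕ → ℕ × List (List ℕ), PolyTime F ∧
    ∀ (p : ℕ) (l : List ℕ), p.Prime → (2 < p → ∃ a : ℕ, a ≤ p.size ^ C ∧ ¬ IsSquare (a : ZMod p)) →
      (∀ q : ℕ, q.Prime → 2 < q → q ≤ l.length → q < p → ∃ r : ℕ, r ≤ (q * p.size) ^ C ∧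
        r.Prime ∧ r ≠ p ∧ q ∣ r - 1 ∧ (p : ZMod r) ^ ((r - 1) / q) ≠ 1) →
      toPoly p l ≠ 0 → IsFactorization p (toPoly p l) (F (p, l)) := by
  refine ⟨alg C, polyTime_alg _, fun p l hp h1 h2 h0 => ?_⟩
  have : Fact p.Prime := ⟨hp⟩
  exact alg_spec ⟨h1, h2⟩ h0

end Vale.Agent.Results.P319.Cond
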