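import Vale.Agent.P319A.Main
import Vale.Agent.P319B.Main

open Vale.Agent.P319A

namespace Vale.Agent.Results.P319.Factor

/-- Complete factorization over prime fields in deterministic polynomial time. -/
theorem result : ∃ F : ℕ × List ℕ → ℕ × List (List ℕ), PolyTime F ∧
    ∀ (p : ℕ) (l : List ℕ), p.Prime → toPoly p l ≠ 0 →
      IsFactorization p (toPoly p l) (F (p, l)) := by
  obtain ⟨C, hC⟩ := Vale.Agent.P319.aux_prime
  obtain ⟨C', hC'⟩ := Vale.Agent.P319.small_qnr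
  refine ⟨alg (max C C'), polyTime_alg _, fun p l hp h0 => ?_⟩
  have : Fact p.Prime := ⟨hp⟩
  have hs : 1 ≤ p.size := Nat.size_pos.2 hp.pos
  refine alg_spec ⟨fun h2 => ?_, fun q hq h2 _ h3 => ?_⟩ h0
  · obtain ⟨a, h4, h5⟩ := hC' p hp h2
    exact ⟨a, h4.trans (Nat.pow_le_pow_right hs (le_max_right _ _)), h5⟩
  · obtain ⟨r, h4, h5, h6⟩ := hC q p hq hp h2 h3
    exact ⟨r, h5.trans (Nat.pow_le_pow_right (Nat.mul_pos hq.pos hs) (le_max_left _ _)), h4, h6⟩

end Vale.Agent.Results.P319.Factor
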