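import Vale.Agent.P319B.SmallQnr

namespace Vale.Agent.Results.P319.Qnr

/-- The least quadratic nonresidue is bounded by a power of the bit length. -/
theorem result : ∃ C : ℕ, ∀ p : ℕ, p.Prime → 2 < p →
    ∃ a : ℕ, a ≤ p.size ^ C ∧ ¬ IsSquare (a : ZMod p) := Vale.Agent.P319B.small_qnr'

end Vale.Agent.Results.P319.Qnr
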